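import Vale.Agent.P011UF5.Qb

/-! The levels of the local group of the elements of norm one. -/

set_option autoImplicit false
set_option linter.all false

noncomputable section

open scoped commutatorElement

namespace Vale.Agent.P011UF5

open Vale.Agent.P011.H738 (Place integers maxIdeal)
open Vale.Agent.P011UE Vale.Agent.P011UF

variable {l Q : Type} [Field l] [DivisionRing Q] [Algebra l Q] [FiniteDimensional l Q]
  {w : Place l} {N : Q →* l} {h : Hy w N} {H : Subgroup Qˣ} {P : Qˣ}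

theorem g1 {u : Qˣ} (k : u ∈ G1 N) : nu w N u = 1 := by rw [nu, mem_G1.1 k, map_one]

/-- The residues of `H` contain the quotients by the conjugates. -/
def L0 (h : Hy w N) (H : Subgroup Qˣ) : Prop :=
  ∀ z, h.ι z ≠ z → ∃ u ∈ H, ∃ U : h.O, (U : Q) = u ∧ h.r U * h.ι z = z

/-- The elements of odd level act as the conjugation. -/
def Od (h : Hy w N) : Prop :=
  ∀ (s : Qˣ) (c : l), nu w N s = w.abv c ^ 2 * rh w → ∀ y, h.r (h.cn s y) = h.ι (h.r y)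

theorem ne0 {Z : h.O} (k : h.ι (h.r Z) ≠ h.r Z) : (Z : Q) ≠ 0 := fun e => k (by
  rw [show Z = 0 from Subtype.ext e, map_zero, map_zero])

theorem lv1 (o : Od h) (le : H ≤ G1 N) {s : Qˣ} (k : ∀ y, ⁅s, y⁆ ∈ H)
    (hs : ∀ c : l, nu w N s ≠ w.abv c ^ 2) : L0 h H := fun z hz => by
  obtain ⟨Z, rfl⟩ := h.r_surj z
  obtain ⟨d, -, hd⟩ := Hy.lev (w := w) (N := N) s.ne_zero
  have m := H.inv_mem (k (Units.mk0 _ (ne0 hz)))
  refine ⟨_, m, ⟨_, (g1 (le m)).le⟩, rfl, ?_⟩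
  rw [← o s d (hd.resolve_left (hs d)), ← map_mul]
  refine congrArg h.r (Subtype.ext ?_)
  show ((⁅s, Units.mk0 _ (ne0 hz)⁆⁻¹ * (s * Units.mk0 _ (ne0 hz) * s⁻¹) : Qˣ) : Q) =
    (Units.mk0 _ (ne0 hz) : Qˣ)
  rw [commutatorElement_def]; congr 1; group

theorem lv2 (o : Od h) (le : H ≤ G1 N) (val : nu w N P = rh w)
    (k : ∀ t n, Unr w t n → ∃ (s : Qˣ) (t' n' : l), (∀ y, ⁅s, y⁆ ∈ H) ∧
      w.abv (t' - t) < 1 ∧ w.abv (n' - n) < 1 ∧ Rt t' n' (s : Q)) : L0 h H := fun z hz => by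
  obtain ⟨Z, rfl⟩ := h.r_surj z
  have a : w.abv (tr N (Z : Q)) ≤ 1 :=
    (pow_le_one_iff_of_nonneg (w.abv.nonneg _) two_ne_zero).1 ((h.tr_le _).trans Z.2)
  have b : w.abv (N Z) ≤ 1 := Z.2
  have ea : h.r ⟨_, h.cen a⟩ = h.r Z + h.ι (h.r Z) := by
    rw [h.ι_r, ← map_add]; exact congrArg h.r (Subtype.ext (add_cj N _).symm)
  have eb : h.r ⟨_, h.cen b⟩ = h.r Z * h.ι (h.r Z) := by
    rw [h.ι_r, ← map_mul]; exact congrArg h.r (Subtype.ext (mul_cj h.dv _).symm)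
  obtain ⟨s, t', n', s1, s2, s3, s4⟩ := k _ _ ⟨a, b, fun x hx => by
    have i : h.ι (h.r ⟨_, h.cen hx⟩) = h.r ⟨_, h.cen hx⟩ :=
      congrArg h.r (Subtype.ext (cj_alg h.dv x))
    have m : (⟨_, h.cen hx⟩ * ⟨_, h.cen hx⟩ - ⟨_, h.cen a⟩ * ⟨_, h.cen hx⟩ + ⟨_, h.cen b⟩ : h.O).1 =
        algebraMap l Q (x ^ 2 - tr N (Z : Q) * x + N Z) := by
      rw [map_add, map_sub, map_mul, map_pow, sq]; rfl
    have : nu w N (algebraMap l Q (x ^ 2 - tr N (Z : Q) * x + N Z)) = 1 :=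
      le_antisymm (by rw [← m]; exact Subtype.property (p := (· ∈ h.O)) _) (not_lt.1 fun j => by
        rcases h.root ea eb (y := ⟨_, h.cen hx⟩) (h.r_zero.2 (m ▸ j)) with e | e
        · exact hz (e ▸ i)
        · rw [e, h.ι_ι] at i; exact hz i.symm)
    rw [h.alg] at this
    exact (pow_eq_one_iff_of_nonneg (w.abv.nonneg _) two_ne_zero).1 this⟩
  have a' := h.near a s2
  have b' := h.near b s3
  obtain ⟨S, hS⟩ : ∃ S : h.O, S = ⟨s, h.rt_mem a' b' s4⟩ := ⟨_, rfl⟩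
  have e := h.root ((h.r_cen a s2).trans ea) ((h.r_cen b s3).trans eb) (y := S)
    (by rw [hS, h.rt_eq a' b' s4, map_zero])
  have oP := o P 1 (by simpa using val) S
  have sS : (S : Q) = s := by rw [hS]
  have f : h.r ⟨_, (g1 (le (s1 P))).le⟩ * h.ι (h.r S) = h.r S := by
    rw [← oP, ← map_mul]
    refine congrArg h.r (Subtype.ext ?_)
    show ((⁅s, P⁆ : Qˣ) : Q) * (P * S * ↑P⁻¹) = S
    rw [sS]
    show ((⁅s, P⁆ * (P * s * P⁻¹) : Qˣ) : Q) = s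
    rw [commutatorElement_def]; congr 1; group
  rcases e with e | e
  · exact ⟨_, s1 P, _, rfl, e ▸ f⟩
  · have m := H.inv_mem (s1 P)
    refine ⟨_, m, ⟨_, (g1 (le m)).le⟩, rfl, ?_⟩
    rw [e, h.ι_ι] at f
    rw [← f, ← mul_assoc, ← map_mul, show (⟨_, (g1 (le m)).le⟩ * ⟨_, (g1 (le (s1 P))).le⟩ : h.O) = 1
      from Subtype.ext (Units.inv_mul ⁅s, P⁆), map_one, one_mul]

/-- The data of the induction. -/
structure Ct (h : Hy w N) (H : Subgroup Qˣ) (P : Qˣ) : Prop where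
  nm : H.Normal
  le : H ≤ G1 N
  val : nu w N P = rh w
  od : Od h
  th : ∃ z, h.ι z ≠ z
  l0 : L0 h H

theorem comm_mem (n : H.Normal) {u : Qˣ} (k : u ∈ H) (v : Qˣ) : ⁅u, v⁆ ∈ H := by
  have := H.mul_mem k (n.conj_mem _ (H.inv_mem k) v)
  rwa [commutatorElement_def, mul_assoc, mul_assoc, ← mul_assoc v]

theorem r_inv {u : Qˣ} (k : nu w N (u - 1) < 1) : ∃ V : h.O, (V : Q) = ↑u⁻¹ ∧ h.r V = 1 := by
  have a := h.unit k
  have b : nu w N ↑u⁻¹ = 1 := by rw [Units.val_inv_eq_inv_val, Hy.inv u.ne_zero, a, inv_one]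
  refine ⟨⟨_, b.le⟩, rfl, (h.r_eq.2 ?_).trans (map_one _)⟩
  show nu w N (↑u⁻¹ - 1) < 1
  rw [show (↑u⁻¹ - 1 : Q) = ↑u⁻¹ * (1 - u) by simp [mul_sub], Hy.mul, b, one_mul, h.sub_comm]
  exact k

namespace Ct
variable (c : Ct h H P)
include c

theorem step0 {g : Qˣ} (k : g ∈ G1 N) : ∃ u ∈ H, nu w N ((u : Q) - g) ≤ rh w := by
  obtain ⟨G, hG⟩ : ∃ G : h.O, (G : Q) = g := ⟨⟨_, (g1 k).le⟩, rfl⟩
  have e : h.r G * h.ι (h.r G) = 1 := by
    rw [h.ι_r, ← map_mul, ← map_one h.r]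
    refine congrArg h.r (Subtype.ext ((mul_cj h.dv _).trans ?_))
    rw [hG, mem_G1.1 k, map_one]; rfl
  suffices ∃ u ∈ H, ∃ U : h.O, (U : Q) = u ∧ h.r U = h.r G by
    obtain ⟨u, m, U, a, b⟩ := this
    exact ⟨u, m, a ▸ hG ▸ Hy.le (h.r_eq.1 b)⟩
  by_cases j : h.r G = 1
  · exact ⟨1, H.one_mem, 1, rfl, (map_one _).trans j.symm⟩
  obtain ⟨z, z0, hz⟩ : ∃ z, z ≠ 0 ∧ h.r G * h.ι z = z := by
    obtain ⟨t, ht⟩ := c.th
    by_cases i : 1 + h.r G = 0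
    · refine ⟨t - h.ι t, sub_ne_zero.2 ht.symm, ?_⟩
      rw [map_sub, h.ι_ι]; linear_combination (h.ι t - t) * i
    · exact ⟨_, i, by rw [map_add, map_one]; linear_combination e⟩
  obtain ⟨u, m, U, a, b⟩ := c.l0 z fun i => j (mul_right_cancel₀ z0 (by rw [i] at hz; simpa))
  exact ⟨u, m, U, a, mul_right_cancel₀ ((map_ne_zero h.ι).2 z0) (b.trans hz.symm)⟩

theorem ex_u : ∃ u ∈ H, ∃ U : h.O, (U : Q) = u ∧ h.ι (h.r U) ≠ h.r U := by
  obtain ⟨z, z1, z2⟩ : ∃ z, h.ι z ≠ z ∧ h.ι z ≠ -z := by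
    obtain ⟨t, ht⟩ := c.th
    by_cases i : h.ι t = -t
    · refine ⟨1 + t, fun j => ht (by simpa using j), fun j => ht ?_⟩
      rw [map_add, map_one] at j
      linear_combination i - t * j + t * i
    · exact ⟨t, ht, i⟩
  obtain ⟨u, m, U, a, b⟩ := c.l0 z z1
  refine ⟨u, m, U, a, fun i => ?_⟩
  have b' := congrArg h.ι b
  rw [map_mul, h.ι_ι, i] at b'
  have z0 : z ≠ 0 := fun j => z1 (by rw [j, map_zero])
  have : (h.ι z - z) * (h.ι z + z) * z = 0 := by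
    linear_combination (-h.ι z * z) * b' + z * z * b
  simp only [mul_eq_zero, z0, or_false, sub_eq_zero, add_eq_zero_iff_eq_neg] at this
  exact this.elim z1 z2

theorem stepO {E : Qˣ} {d : l} (hE : nu w N E = w.abv d ^ 2 * rh w) (l1 : nu w N E < 1) (a : h.O) :
    ∃ u ∈ H, nu w N ((u : Q) - (1 + a * E)) ≤ nu w N E * rh w := by
  obtain ⟨u, m, U, hU, i⟩ := c.ex_u
  have u1 : nu w N u = 1 := g1 (c.le m)
  obtain ⟨U', hU'⟩ : ∃ U' : h.O, (U' : Q) = ↑u⁻¹ := ⟨⟨_, (g1 (c.le (H.inv_mem m))).le⟩, rfl⟩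
  have e : h.r U * h.r U' = 1 := by
    rw [← map_mul, ← map_one h.r]
    exact congrArg h.r (Subtype.ext (show (U : Q) * U' = 1 by rw [hU, hU', u.mul_inv]))
  have e' := congrArg h.ι e
  rw [map_mul, map_one] at e'
  have n : h.r U * h.ι (h.r U') - 1 ≠ 0 := fun j => i (by
    linear_combination (-h.ι (h.r U)) * j + h.r U * e')
  obtain ⟨b, hb⟩ := h.r_surj (h.r a / (h.r U * h.ι (h.r U') - 1))
  have v1 : nu w N (1 + b * E - 1) < 1 := by
    rw [add_sub_cancel_left, Hy.mul]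
    exact mul_lt_one_of_nonneg_of_lt_one_right b.2 (Hy.nn _) l1
  obtain ⟨v, hv⟩ : ∃ v : Qˣ, (v : Q) = 1 + b * E :=
    ⟨Units.mk0 _ (h.ne (h.unit v1 ▸ one_pos)), rfl⟩
  obtain ⟨V, hV, rV⟩ := r_inv (h := h) (u := v) (hv ▸ v1)
  refine ⟨_, comm_mem c.nm m v, ?_⟩
  have z : h.r ((U * b * h.cn E U' - b) * h.cn E V - a) = 0 := by
    simp only [map_sub, map_mul, c.od E d hE, rV, hb, map_one]
    field_simp
    ring
  have q : ((⁅u, v⁆ : Qˣ) : Q) - (1 + a * E) =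
      ((U * b * h.cn E U' - b) * h.cn E V - a : h.O) * (E : Q) := by
    have : ((⁅u, v⁆ : Qˣ) : Q) - 1 = (u * v * ↑u⁻¹ - v) * ↑v⁻¹ := by
      simp [commutatorElement_def, sub_mul]
    rw [← sub_sub, this, hv]
    simp [Hy.cn_c, hU, hU', hV, sub_mul, mul_add, add_mul, mul_assoc]
  rw [q, Hy.mul, mul_comm]
  exact mul_le_mul_of_nonneg_left (Hy.le (h.r_zero.1 z)) (Hy.nn _)

theorem vp : w.abv (N P) = rh w := c.val

theorem ex_f : ∃ f : h.O, h.r f = 1 ∧ (P : Q) * P = -(f * algebraMap l Q (N P)) := by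
  have p0 : N P ≠ 0 := (Units.map N P).ne_zero
  have r0 := rh_pos w
  have t : w.abv (tr N (P : Q)) ≤ rh w := le_rh w ((pow_lt_one_iff_of_nonneg (w.abv.nonneg _)
    two_ne_zero).1 (((h.tr_le _).trans c.val.le).trans_lt (rh_lt w)))
  have k : nu w N (1 - algebraMap l Q (tr N (P : Q)) * P * algebraMap l Q (N P)⁻¹ - 1) < 1 := by
    rw [sub_sub_cancel_left, h.neg, h.scale p0, Hy.mul, h.alg, c.vp, c.val, div_lt_one (by positivity)]
    exact (mul_le_mul_of_nonneg_right (pow_le_pow_left₀ (w.abv.nonneg _) t 2) r0.le).trans_lt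
      (mul_lt_of_lt_one_right (by positivity) (rh_lt w))
  refine ⟨⟨_, (h.unit k).le⟩, (h.r_eq.2 k).trans (map_one _), ?_⟩
  show _ = -((1 - _) * _)
  rw [sub_mul, mul_assoc, ← map_mul, inv_mul_cancel₀ p0, map_one, mul_one, one_mul, ← mul_cj h.dv,
    ← add_cj, add_mul, cj_comm]
  abel

theorem stepE {d : l} (d0 : d ≠ 0) (d1 : w.abv d ≤ 1) {g : Qˣ} (k : g ∈ G1 N)
    (hg : nu w N ((g : Q) - 1) ≤ w.abv d ^ 2 * rh w ^ 2) :
    ∃ u ∈ H, nu w N ((u : Q) - g) ≤ w.abv d ^ 2 * rh w ^ 2 * rh w := by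
  have r0 := rh_pos w
  have r1 := rh_lt w
  have p0 : d * N P ≠ 0 := mul_ne_zero d0 ((Units.map N P).ne_zero)
  have pv : w.abv (d * N P) ^ 2 = w.abv d ^ 2 * rh w ^ 2 := by rw [map_mul, c.vp, mul_pow]
  have pp : 0 < w.abv d ^ 2 * rh w ^ 2 := mul_pos (pow_pos (w.abv.pos d0) 2) (by positivity)
  have p1 : w.abv d ^ 2 * rh w ^ 2 < 1 := mul_lt_one_of_nonneg_of_lt_one_right
    (pow_le_one₀ (w.abv.nonneg _) d1) (by positivity) (pow_lt_one₀ r0.le r1 two_ne_zero)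
  obtain ⟨a, ha⟩ : ∃ a : h.O, (a : Q) = (g - 1) * algebraMap l Q (d * N P)⁻¹ :=
    ⟨⟨_, show nu w N _ ≤ 1 by rw [h.scale p0, pv, div_le_one pp]; exact hg⟩, rfl⟩
  have ga : (g : Q) = 1 + a * algebraMap l Q (d * N P) := by
    rw [ha, mul_assoc, ← map_mul, inv_mul_cancel₀ p0, map_one, mul_one, add_sub_cancel]
  have ta : h.r a + h.ι (h.r a) = 0 := by
    rw [h.ι_r, ← map_add, h.r_zero]
    show nu w N (a + cj N a) < 1
    have t : tr N ((g : Q) - 1) = -N (g - 1) := by rw [tr, sub_add_cancel, mem_G1.1 k]; ring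
    rw [ha, cj_mul h.dv, cj_alg h.dv, Algebra.commutes, ← add_mul, add_cj, h.scale p0, pv, t, h.alg,
      w.abv.map_neg, div_lt_one pp]
    exact (pow_le_pow_left₀ (w.abv.nonneg _) hg 2).trans_lt (by nlinarith)
  obtain ⟨t, ht⟩ := c.th
  obtain ⟨b, hb⟩ := h.r_surj (h.r a * t / (t - h.ι t))
  obtain ⟨f, rf, hf⟩ := c.ex_f
  have oP := c.od P 1 (by simpa using c.val)
  obtain ⟨u, m, hu⟩ := c.stepO (E := P) (d := 1) (by simpa using c.val) (c.val ▸ r1) 1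
  rw [c.val, OneMemClass.coe_one, one_mul] at hu
  have e1 : nu w N ((u - 1) * ↑P⁻¹ - 1) < 1 := by
    rw [show (u - 1) * ↑P⁻¹ - 1 = ((u : Q) - (1 + P)) * ↑P⁻¹ by simp [sub_mul, add_mul, sub_sub],
      Hy.mul, Units.val_inv_eq_inv_val, Hy.inv P.ne_zero, c.val, ← div_eq_mul_inv, div_lt_one r0]
    exact hu.trans_lt (mul_lt_of_lt_one_right r0 r1)
  obtain ⟨e, he⟩ : ∃ e : h.O, (e : Q) = (u - 1) * ↑P⁻¹ := ⟨⟨_, (h.unit e1).le⟩, rfl⟩
  have re : h.r e = 1 := (h.r_eq.2 (he ▸ e1)).trans (map_one _)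
  have ue : (u : Q) = 1 + e * P := by simp [he]
  obtain ⟨U, hU, rU⟩ := r_inv (h := h) (u := u) (by
    rw [ue, add_sub_cancel_left, Hy.mul, c.val]
    exact mul_lt_one_of_nonneg_of_lt_one_right e.2 r0.le r1)
  have v1 : nu w N (1 + b * P * algebraMap l Q d - 1) < 1 := by
    rw [add_sub_cancel_left, Hy.mul, Hy.mul, c.val]
    exact mul_lt_one_of_nonneg_of_lt_one_left (mul_nonneg (Hy.nn _) r0.le)
      (mul_lt_one_of_nonneg_of_lt_one_right b.2 r0.le r1) (h.cen d1)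
  obtain ⟨v, hv⟩ : ∃ v : Qˣ, (v : Q) = 1 + b * P * algebraMap l Q d :=
    ⟨Units.mk0 _ (h.ne (h.unit v1 ▸ one_pos)), rfl⟩
  obtain ⟨V, hV, rV⟩ := r_inv (h := h) (u := v) (hv ▸ v1)
  refine ⟨_, comm_mem c.nm m v, ?_⟩
  have z : h.r ((b * h.cn P e - e * h.cn P b) * f * U * V - a) = 0 := by
    have n := sub_ne_zero.2 ht.symm
    have n' := sub_ne_zero.2 ht
    simp only [map_sub, map_mul, oP, rU, rV, rf, re, hb, map_one, map_div₀, h.ι_ι,
      eq_neg_of_add_eq_zero_right ta]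
    field_simp
    ring
  have q : ((⁅u, v⁆ : Qˣ) : Q) - g =
      ((b * h.cn P e - e * h.cn P b) * f * U * V - a : h.O) * algebraMap l Q (d * N P) := by
    have s1 : ((⁅u, v⁆ : Qˣ) : Q) - 1 = (u * v - v * u) * U * V := by
      simp [commutatorElement_def, sub_mul, hU, hV, mul_assoc]
    have s2 : (u * v - v * u : Q) = (e * h.cn P b - b * h.cn P e) * (P * P) * algebraMap l Q d := by
      rw [ue, hv]
      simp only [Hy.cn_c, ← Algebra.commutes d, ← Algebra.smul_def, sub_mul, mul_add, add_mul,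
        mul_assoc, Units.inv_mul_cancel_left, smul_mul_assoc, mul_smul_comm, smul_sub, smul_add,
        one_mul, mul_one]
      abel
    rw [ga, ← sub_sub, s1, s2, hf]
    simp only [← Algebra.commutes, ← Algebra.smul_def, sub_mul, mul_assoc, smul_mul_assoc,
      mul_smul_comm, smul_sub, AddSubgroupClass.coe_sub, Subring.coe_mul, mul_neg, neg_mul,
      smul_neg, smul_smul]
    abel
  rw [q, Hy.mul, h.alg, pv, mul_comm]
  exact mul_le_mul_of_nonneg_left (Hy.le (h.r_zero.1 z)) pp.le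

theorem step (m : ℕ) {g : Qˣ} (k : g ∈ G1 N) (hg : nu w N ((g : Q) - 1) ≤ rh w ^ m) :
    ∃ u ∈ H, nu w N ((u : Q) - g) ≤ rh w ^ (m + 1) := by
  have r0 := rh_pos w
  have p0 : ∀ j : ℕ, N P ^ j ≠ 0 := fun j => pow_ne_zero _ ((Units.map N P).ne_zero)
  have pv : ∀ j : ℕ, w.abv (N P ^ j) ^ 2 = rh w ^ (2 * j) := fun j => by
    rw [map_pow, c.vp, ← pow_mul, mul_comm]
  rcases m with - | m
  · simpa using c.step0 k
  obtain ⟨j, rfl | rfl⟩ := Nat.even_or_odd' m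
  · obtain ⟨E, hE⟩ : ∃ E : Qˣ, nu w N E = w.abv (N P ^ j) ^ 2 * rh w :=
      ⟨Units.mk0 _ ((map_ne_zero (algebraMap l Q)).2 (p0 j)) * P, by
        rw [Units.val_mul, Hy.mul, c.val, Units.val_mk0, h.alg]⟩
    have e : nu w N E = rh w ^ (2 * j + 1) := by rw [hE, pv, pow_succ]
    obtain ⟨u, m, hu⟩ := c.stepO hE (e ▸ pow_lt_one₀ r0.le (rh_lt w) (by omega))
      ⟨(g - 1) * ↑E⁻¹, show nu w N _ ≤ 1 by
        rw [Hy.mul, Units.val_inv_eq_inv_val, Hy.inv E.ne_zero, ← div_eq_mul_inv,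
          div_le_one (Hy.pos E.ne_zero), e]; exact hg⟩
    exact ⟨u, m, by simpa [e, pow_succ] using hu⟩
  · obtain ⟨u, m, hu⟩ := c.stepE (p0 j) (by
      rw [map_pow, c.vp]; exact pow_le_one₀ r0.le (rh_lt w).le) k (by rw [pv, ← pow_add]; exact hg)
    exact ⟨u, m, by rwa [pv, ← pow_add, ← pow_succ] at hu⟩

theorem all (m : ℕ) {g : Qˣ} (k : g ∈ G1 N) : ∃ u ∈ H, nu w N ((u : Q) - g) ≤ rh w ^ m := by
  induction m with
  | zero => exact ⟨1, H.one_mem, by simpa [Hy.one, g1 (w := w) k] using h.sub 1 g⟩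
  | succ m ih =>
    obtain ⟨u, mu, hu⟩ := ih
    have u1 := g1 (w := w) (c.le (H.inv_mem mu))
    obtain ⟨v, mv, hv⟩ := c.step m (mul_mem (c.le (H.inv_mem mu)) k) (by
      rw [show ((u⁻¹ * g : Qˣ) : Q) - 1 = ↑u⁻¹ * (g - u) by simp [mul_sub], Hy.mul, u1, one_mul,
        h.sub_comm]; exact hu)
    refine ⟨_, mul_mem mu mv, ?_⟩
    rw [show ((u * v : Qˣ) : Q) - g = u * (v - ↑(u⁻¹ * g)) by simp [mul_sub], Hy.mul,
      g1 (c.le mu), one_mul]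
    exact hv

end Ct

theorem locd : LOCD := by
  intro l Q _ _ _ _ N D w um H nm le k g hg ε e0
  have h : Hy w N := ⟨D, um⟩
  obtain ⟨x, hx⟩ : ∃ x : h.O, h.ι (h.r x) ≠ h.r x := by
    rcases k with ⟨s, -, hs⟩ | ⟨⟨t, n, u⟩, k⟩
    · exact h.th1 s.ne_zero hs
    · obtain ⟨s, t', n', -, a, b, e⟩ := k t n u
      exact h.th2 u a b e
  obtain ⟨P, val, od⟩ := h.ex_pi hx
  have c : Ct h H P := ⟨nm, le, val, od, ⟨_, hx⟩,
    k.elim (fun ⟨_, a, b⟩ => lv1 od le a b) fun k => lv2 od le val k.2⟩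
  obtain ⟨m, hm⟩ := exists_pow_lt_of_lt_one e0 (rh_lt w)
  obtain ⟨u, mu, hu⟩ := c.all m hg
  exact ⟨u, mu, hu.trans_lt hm⟩

end Vale.Agent.P011UF5
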