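import Vale.Agent.P011UF.IF
import Vale.Agent.P011UE.Kit
import Mathlib.RingTheory.LittleWedderburn

/-! The conjugation and the absolute value of a quaternion algebra. -/

set_option autoImplicit false
set_option linter.all false

noncomputable section

namespace Vale.Agent.P011UF5

open Vale.Agent.P011.H738 (Place integers maxIdeal)
open Vale.Agent.P011UE

variable {l Q : Type} [Field l] [DivisionRing Q] [Algebra l Q] [FiniteDimensional l Q]

/-- The trace and the conjugation. -/
def tr (N : Q →* l) (x : Q) : l := N (x + 1) - N x - 1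
def cj (N : Q →* l) (x : Q) : Q := algebraMap l Q (tr N x) - x

section
variable {N : Q →* l} (h : Dv l Q 2 N)
include h

theorem ex_adj : ∃ f : Q →ₐ[l] Matrix (Fin 2) (Fin 2) (AlgebraicClosure l),
    (∀ x, algebraMap l _ (N x) = (f x).det) ∧ ∀ x, f (cj N x) = (f x).adjugate := by
  obtain ⟨f, hf⟩ := h.split
  refine ⟨f, hf, fun x => ?_⟩
  have e : algebraMap l (AlgebraicClosure l) (tr N x) = f x 0 0 + f x 1 1 := by
    rw [tr, map_sub, map_sub, hf, hf, map_add, map_one, map_one, Matrix.det_fin_two,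
      Matrix.det_fin_two]
    simp; ring
  rw [cj, map_sub, f.commutes, Matrix.adjugate_fin_two]
  ext i j
  fin_cases i <;> fin_cases j <;> simp [Matrix.algebraMap_matrix_apply, e]

theorem mul_cj (x : Q) : x * cj N x = algebraMap l Q (N x) := by
  obtain ⟨f, h1, h2⟩ := ex_adj h
  refine f.toRingHom.injective ?_
  show f _ = f _
  rw [map_mul, h2, Matrix.mul_adjugate, f.commutes, ← h1, algebraMap_smul,
    Algebra.algebraMap_eq_smul_one]

theorem cj_mul (x y : Q) : cj N (x * y) = cj N y * cj N x := by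
  obtain ⟨f, h1, h2⟩ := ex_adj h
  refine f.toRingHom.injective ?_
  show f _ = f _
  rw [map_mul, h2, h2, h2, map_mul, Matrix.adjugate_mul_distrib]

theorem cj_add (x y : Q) : cj N (x + y) = cj N x + cj N y := by
  obtain ⟨f, h1, h2⟩ := ex_adj h
  refine f.toRingHom.injective ?_
  show f _ = f _
  rw [map_add, h2, h2, h2, map_add]
  simp only [Matrix.adjugate_fin_two]
  ext i j
  fin_cases i <;> fin_cases j <;> simp [add_comm]

theorem cj_alg (c : l) : cj N (algebraMap l Q c) = algebraMap l Q c := by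
  have := h.alg (c + 1)
  rw [map_add, map_one] at this
  rw [cj, tr, this, h.alg, ← map_sub]
  congr 1; ring

theorem N_cj (x : Q) : N (cj N x) = N x := by
  obtain ⟨f, h1, h2⟩ := ex_adj h
  refine (algebraMap l (AlgebraicClosure l)).injective ?_
  rw [h1, h1, h2, Matrix.det_adjugate]; simp

theorem N_zero : N 0 = 0 := by simpa using h.alg 0

end

theorem add_cj (N : Q →* l) (x : Q) : x + cj N x = algebraMap l Q (tr N x) := add_sub_cancel _ _

theorem cj_comm (N : Q →* l) (x : Q) : cj N x * x = x * cj N x := by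
  rw [cj, sub_mul, mul_sub, Algebra.commutes]

/-- The absolute value of the algebra. -/
def nu (w : Place l) (N : Q →* l) (x : Q) : ℝ := w.abv (N x)

/-- The algebra with an ultrametric absolute value. -/
structure Hy (w : Place l) (N : Q →* l) : Prop where
  dv : Dv l Q 2 N
  um : ∀ x y : Q, w.abv (N (x + y)) ≤ max (w.abv (N x)) (w.abv (N y))

/-- The inverse of the order of the residue field. -/
def rh (w : Place l) : ℝ := (Nat.card (integers w.abv w.nonarch ⧸ maxIdeal w.abv w.nonarch) : ℝ)⁻¹

section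
variable (w : Place l)

theorem one_lt : (1 : ℝ) < Nat.card (integers w.abv w.nonarch ⧸ maxIdeal w.abv w.nonarch) := by
  have := w.normalized.1
  have : Nontrivial (integers w.abv w.nonarch ⧸ maxIdeal w.abv w.nonarch) :=
    Ideal.Quotient.nontrivial_iff.2 ((Ideal.ne_top_iff_one _).2 fun h =>
      (show w.abv 1 < 1 from h).ne (map_one _))
  exact_mod_cast Finite.one_lt_card

theorem rh_pos : 0 < rh w := inv_pos.2 (zero_lt_one.trans (one_lt w))
theorem rh_lt : rh w < 1 := inv_lt_one_of_one_lt₀ (one_lt w)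

theorem ex_pow {c : l} (h : c ≠ 0) : ∃ m : ℤ, w.abv c = rh w ^ m :=
  let ⟨m, e⟩ := w.normalized.2.2 c h
  ⟨-m, by rw [e, rh, inv_zpow', neg_neg]⟩

theorem ex_val (m : ℤ) : ∃ c : l, c ≠ 0 ∧ w.abv c = rh w ^ m := by
  obtain ⟨x, e⟩ := w.normalized.2.1
  have : x ≠ 0 := fun k => by
    rw [k, map_zero] at e
    linarith [one_lt w]
  exact ⟨x ^ (-m), zpow_ne_zero _ this, by rw [map_zpow₀, e, rh, inv_zpow']⟩

theorem le_rh {c : l} (h : w.abv c < 1) : w.abv c ≤ rh w := by
  rcases eq_or_ne c 0 with rfl | k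
  · simpa using (rh_pos w).le
  obtain ⟨m, e⟩ := ex_pow w k
  rw [e] at h ⊢
  have := (zpow_lt_one_iff_right_of_lt_one₀ (rh_pos w) (rh_lt w)).1 h
  simpa using zpow_le_zpow_right_of_le_one₀ (rh_pos w) (rh_lt w).le (show 1 ≤ m from this)

/-- Even and odd levels. -/
theorem par {x : l} (h : x ≠ 0) : ∃ c : l, c ≠ 0 ∧
    (w.abv x = w.abv c ^ 2 ∨ w.abv x = w.abv c ^ 2 * rh w) := by
  obtain ⟨m, e⟩ := ex_pow w h
  obtain ⟨c, c0, k⟩ := ex_val w (m / 2)
  refine ⟨c, c0, ?_⟩
  rw [e, k, ← zpow_natCast, ← zpow_mul, ← zpow_add_one₀ (rh_pos w).ne']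
  rcases Int.emod_two_eq_zero_or_one m with j | j
  · exact .inl (congrArg _ (by push_cast; omega))
  · exact .inr (congrArg _ (by push_cast; omega))

end

namespace Hy
variable {w : Place l} {N : Q →* l} {x y : Q} {c : l}

theorem nn (x : Q) : 0 ≤ nu w N x := w.abv.nonneg _
theorem mul (x y : Q) : nu w N (x * y) = nu w N x * nu w N y := by simp [nu]
theorem one : nu w N 1 = 1 := by simp [nu]
theorem pos (k : x ≠ 0) : 0 < nu w N x := w.abv.pos (Units.map N (Units.mk0 x k)).ne_zero
theorem inv (k : x ≠ 0) : nu w N x⁻¹ = (nu w N x)⁻¹ :=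
  eq_inv_of_mul_eq_one_left (by rw [← mul, inv_mul_cancel₀ k, one])
theorem le (k : nu w N x < 1) : nu w N x ≤ rh w := le_rh w k

variable (h : Hy w N)
include h

theorem zero : nu w N 0 = 0 := by rw [nu, N_zero h.dv, map_zero]
theorem alg (c : l) : nu w N (algebraMap l Q c) = w.abv c ^ 2 := by rw [nu, h.dv.alg, map_pow]
theorem neg (x : Q) : nu w N (-x) = nu w N x := by
  rw [← neg_one_mul, mul, ← map_one (algebraMap l Q), ← map_neg, h.alg]; simp
theorem add (x y : Q) : nu w N (x + y) ≤ max (nu w N x) (nu w N y) := h.um x y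
theorem sub (x y : Q) : nu w N (x - y) ≤ max (nu w N x) (nu w N y) := by
  rw [sub_eq_add_neg, ← h.neg y]; exact h.add _ _
theorem sub_comm (x y : Q) : nu w N (x - y) = nu w N (y - x) := by rw [← h.neg, neg_sub]
theorem cj (x : Q) : nu w N (cj N x) = nu w N x := by rw [nu, N_cj h.dv, nu]
theorem ne (k : 0 < nu w N x) : x ≠ 0 := fun e => by rw [e, h.zero] at k; exact k.false
theorem tr_le (x : Q) : w.abv (tr N x) ^ 2 ≤ nu w N x := by
  rw [← h.alg, ← add_cj]
  exact (h.add _ _).trans (by rw [h.cj, max_self])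
theorem unit (k : nu w N (x - 1) < 1) : nu w N x = 1 := by
  refine le_antisymm ?_ (not_lt.1 fun j => ?_)
  · simpa [one, k.le] using h.add (x - 1) 1
  · have := (h.sub x (x - 1)).trans_lt (max_lt j k)
    rw [sub_sub_cancel, one] at this
    exact this.false

/-- The maximal order. -/
def O : Subring Q where
  carrier := {x | nu w N x ≤ 1}
  mul_mem' hx hy := (mul _ _).trans_le (mul_le_one₀ hx (nn _) hy)
  one_mem' := one.le
  add_mem' hx hy := (h.add _ _).trans (max_le hx hy)
  zero_mem' := h.zero.trans_le zero_le_one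
  neg_mem' hx := (h.neg _).trans_le hx

/-- The congruence modulo the maximal ideal. -/
def con : RingCon h.O where
  r x y := nu w N (x - y) < 1
  iseqv := ⟨fun x => by rw [sub_self, h.zero]; exact zero_lt_one, fun k => h.sub_comm _ _ ▸ k,
    fun {x y z} k j => by
      rw [← sub_add_sub_cancel _ (y : Q)]; exact (h.add _ _).trans_lt (max_lt k j)⟩
  add' {x y z t} k j := by
    show nu w N (x + z - (y + t)) < 1
    rw [add_sub_add_comm]; exact (h.add _ _).trans_lt (max_lt k j)
  mul' {x y z t} k j := by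
    show nu w N (x * z - y * t) < 1
    rw [show (x * z - y * t : Q) = (x - y) * z + y * (z - t) by noncomm_ring]
    refine (h.add _ _).trans_lt (max_lt ?_ ?_) <;> rw [mul]
    exacts [mul_lt_one_of_nonneg_of_lt_one_left (nn _) k z.2,
      mul_lt_one_of_nonneg_of_lt_one_right y.2 (nn _) j]

/-- The residue ring. -/
def K : Type := h.con.Quotient

instance : Ring h.K := inferInstanceAs (Ring h.con.Quotient)

/-- The residue map. -/
def r : h.O →+* h.K := h.con.mk'

theorem r_eq {x y : h.O} : h.r x = h.r y ↔ nu w N (x - y) < 1 := h.con.eq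
theorem r_zero {x : h.O} : h.r x = 0 ↔ nu w N x < 1 := by
  rw [← map_zero h.r, h.r_eq]; simp
theorem r_surj (z : h.K) : ∃ x, h.r x = z := h.con.mk'_surjective z

instance : IsDomain h.K :=
  have : Nontrivial h.K := ⟨1, 0, fun e => by
    rw [← map_one h.r, h.r_zero] at e; exact e.ne one⟩
  have : NoZeroDivisors h.K := ⟨fun {a b} e => by
    obtain ⟨x, rfl⟩ := h.r_surj a
    obtain ⟨y, rfl⟩ := h.r_surj b
    rw [← map_mul, h.r_zero, Subring.coe_mul, mul] at e
    rw [h.r_zero, h.r_zero]
    by_contra k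
    rw [not_or, not_lt, not_lt] at k
    exact (one_le_mul_of_one_le_of_one_le k.1 k.2).not_gt e⟩
  NoZeroDivisors.to_isDomain _

/-- The integers of the centre. -/
def io : integers w.abv w.nonarch →+* h.O :=
  ((algebraMap l Q).comp (integers w.abv w.nonarch).subtype).codRestrict _ fun c =>
    (h.alg _).trans_le (pow_le_one₀ (w.abv.nonneg _) c.2)

theorem io_c (c : integers w.abv w.nonarch) : (h.io c : Q) = algebraMap l Q c := rfl

/-- The residue field of the centre. -/
def i0 : (integers w.abv w.nonarch ⧸ maxIdeal w.abv w.nonarch) →+* h.K :=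
  Ideal.Quotient.lift _ (h.r.comp h.io) fun c k => h.r_zero.2
    ((h.alg _).trans_lt (pow_lt_one₀ (w.abv.nonneg _) k two_ne_zero))

omit h in
theorem fld (w : Place l) : IsField (integers w.abv w.nonarch ⧸ maxIdeal w.abv w.nonarch) := by
  refine ⟨?_, mul_comm, fun {a} k => ?_⟩
  · have := w.normalized.1
    exact (Finite.one_lt_card_iff_nontrivial.1 (by exact_mod_cast one_lt w)).1
  obtain ⟨c, rfl⟩ := Ideal.Quotient.mk_surjective a
  have e : w.abv c = 1 := le_antisymm c.2 (not_lt.1 fun j => k (Ideal.Quotient.eq_zero_iff_mem.2 j))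
  have c0 : (c : l) ≠ 0 := fun j => by simp [j] at e
  exact ⟨Ideal.Quotient.mk _ ⟨(c : l)⁻¹, show w.abv _ ≤ 1 by rw [map_inv₀, e, inv_one]⟩, by
    rw [← map_mul, ← map_one (Ideal.Quotient.mk _)]
    exact congrArg _ (Subtype.ext (mul_inv_cancel₀ c0))⟩

instance : Finite h.K := by
  letI := (fld w).toField
  have := w.normalized.1
  letI : Module (integers w.abv w.nonarch ⧸ maxIdeal w.abv w.nonarch) h.K := .compHom _ h.i0
  have : Module.Finite (integers w.abv w.nonarch ⧸ maxIdeal w.abv w.nonarch) h.K := by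
    refine Module.rank_lt_aleph0_iff.1 ((rank_le (n := Module.finrank l Q) fun s hs => ?_).trans_lt
      Cardinal.natCast_lt_aleph0)
    choose e he using h.r_surj
    rw [← Fintype.card_coe]
    refine LinearIndependent.fintype_card_le_finrank (b := fun i : s => (e i : Q))
      (Fintype.linearIndependent_iff.2 fun g k i => by_contra fun j => ?_)
    obtain ⟨m, -, hm⟩ := Finset.univ.exists_max_image (fun i => w.abv (g i)) ⟨i, Finset.mem_univ _⟩
    have p : 0 < w.abv (g m) := (w.abv.pos j).trans_le (hm i (Finset.mem_univ _))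
    have m0 : g m ≠ 0 := w.abv.pos_iff.1 p
    let d : s → integers w.abv w.nonarch := fun i => ⟨g i / g m, show w.abv _ ≤ 1 by
      rw [map_div₀, div_le_one p]; exact hm i (Finset.mem_univ _)⟩
    have z : ∑ i, h.io (d i) * e i = 0 := Subtype.ext (by
      have := congrArg ((g m)⁻¹ • ·) k
      simp only [Finset.smul_sum, smul_smul, smul_zero] at this
      rw [ZeroMemClass.coe_zero, ← this]
      simp [d, io_c, div_eq_inv_mul, Algebra.smul_def])
    have := Fintype.linearIndependent_iff.1 hs (fun i => Ideal.Quotient.mk _ (d i)) (by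
      have := congrArg h.r z
      simp only [map_sum, map_mul, he, map_zero] at this
      exact this) m
    exact (show w.abv (g m / g m) < 1 from Ideal.Quotient.eq_zero_iff_mem.1 this).ne
      (by rw [div_self m0, map_one])
  exact Module.finite_of_finite (integers w.abv w.nonarch ⧸ maxIdeal w.abv w.nonarch)

instance : Field h.K := (Finite.isDomain_to_isField h.K).toField

end Hy

end Vale.Agent.P011UF5
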