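import Vale.Agent.P011UF5.Qa
import Mathlib.RingTheory.Congruence.Hom

/-! The conjugation on the residue field, and the elements of odd level. -/

set_option autoImplicit false
set_option linter.all false

noncomputable section

namespace Vale.Agent.P011UF5

open Vale.Agent.P011.H738 (Place integers maxIdeal)
open Vale.Agent.P011UE Vale.Agent.P011UF

variable {l Q : Type} [Field l] [DivisionRing Q] [Algebra l Q] [FiniteDimensional l Q]

namespace Hy
variable {w : Place l} {N : Q →* l} (h : Hy w N)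
include h

theorem cj_sub (x y : Q) : P011UF5.cj N (x - y) = P011UF5.cj N x - P011UF5.cj N y :=
  eq_sub_of_add_eq (by rw [← cj_add h.dv, sub_add_cancel])

theorem cj_cj (x : Q) : P011UF5.cj N (P011UF5.cj N x) = x := by
  have := cj_add h.dv x (P011UF5.cj N x)
  rw [add_cj, cj_alg h.dv, ← add_cj, add_comm] at this
  exact (add_left_cancel this).symm

theorem ex_nc {x : Q} (k : ∀ c, x ≠ algebraMap l Q c) : ∃ y, x * y - y * x ≠ 0 := by
  have := h.dv.central
  by_contra j
  obtain ⟨c, e⟩ := (Algebra.IsCentral.mem_center_iff l (x := x)).1 (Subalgebra.mem_center_iff.2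
    fun y => (sub_eq_zero.1 (by_contra fun i => j ⟨y, i⟩)).symm)
  exact k c e

/-- The conjugation on the order and on the residue field. -/
def cO (x : h.O) : h.O := ⟨P011UF5.cj N x, (h.cj _).trans_le x.2⟩

def ι : h.K →+* h.K := h.con.lift
  { toFun x := h.r (h.cO x)
    map_one' := by
      rw [← map_one h.r]
      exact congrArg _ (Subtype.ext (show P011UF5.cj N 1 = 1 by simpa using cj_alg h.dv 1))
    map_mul' x y := by
      rw [mul_comm, ← map_mul]
      exact congrArg _ (Subtype.ext (cj_mul h.dv _ _))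
    map_zero' := by
      rw [← map_zero h.r]
      exact congrArg _ (Subtype.ext (show P011UF5.cj N 0 = 0 by simpa using cj_alg h.dv 0))
    map_add' x y := by
      rw [← map_add]
      exact congrArg _ (Subtype.ext (cj_add h.dv _ _)) }
  fun x y k => h.r_eq.2 (show nu w N (P011UF5.cj N x - P011UF5.cj N y) < 1 by
    rw [← h.cj_sub, h.cj]; exact k)

theorem ι_r (x : h.O) : h.ι (h.r x) = h.r (h.cO x) := rfl

theorem ι_ι (z : h.K) : h.ι (h.ι z) = z := by
  obtain ⟨x, rfl⟩ := h.r_surj z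
  exact congrArg h.r (Subtype.ext (h.cj_cj x))

theorem root {x y t n : h.O} (ht : h.r t = h.r x + h.ι (h.r x))
    (hn : h.r n = h.r x * h.ι (h.r x)) (this : h.r (y * y - t * y + n) = 0) :
    h.r y = h.r x ∨ h.r y = h.ι (h.r x) := by
  rw [map_add, map_sub, map_mul, map_mul, ht, hn] at this
  rw [← sub_eq_zero, ← sub_eq_zero (a := h.r y) (b := h.ι _), ← mul_eq_zero]
  linear_combination this

/-- The fixed field of the conjugation. -/
theorem fix (x : h.O) (e : h.ι (h.r x) = h.r x) :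
    ∃ c : integers w.abv w.nonarch, h.r x = h.r (h.io c) := by
  letI := (fld w).toField
  have := w.normalized.1
  let t : integers w.abv w.nonarch := ⟨tr N x, show w.abv _ ≤ 1 from
    (pow_le_one_iff_of_nonneg (w.abv.nonneg _) two_ne_zero).1 ((h.tr_le _).trans x.2)⟩
  let n : integers w.abv w.nonarch := ⟨N x, x.2⟩
  have ht : h.i0 (Ideal.Quotient.mk _ t) = h.r x + h.r x := by
    rw [show h.r x + h.r x = h.r (x + h.cO x) by rw [map_add, ← ι_r, e]]
    exact congrArg h.r (Subtype.ext (add_cj N _).symm)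
  have hn : h.i0 (Ideal.Quotient.mk _ n) = h.r x * h.r x := by
    rw [show h.r x * h.r x = h.r (x * h.cO x) by rw [map_mul, ← ι_r, e]]
    exact congrArg h.r (Subtype.ext (mul_cj h.dv _).symm)
  suffices ∃ c, h.r x = h.i0 c by
    obtain ⟨c, k⟩ := this
    obtain ⟨c, rfl⟩ := Ideal.Quotient.mk_surjective c
    exact ⟨c, k⟩
  by_cases k : (2 : integers w.abv w.nonarch ⧸ maxIdeal w.abv w.nonarch) = 0
  · obtain ⟨c, hc⟩ := Finite.injective_iff_surjective.1 (show Function.Injective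
      fun a : integers w.abv w.nonarch ⧸ maxIdeal w.abv w.nonarch => a * a from fun a b j =>
        sub_eq_zero.1 (pow_eq_zero_iff two_ne_zero |>.1 (show (a - b) ^ 2 = 0 by
          linear_combination j + (b ^ 2 - a * b) * k))) (Ideal.Quotient.mk _ n)
    have k2 : (2 : h.K) = 0 := by rw [← map_ofNat h.i0, k, map_zero]
    rw [← hc, map_mul] at hn
    exact ⟨c, sub_eq_zero.1 (pow_eq_zero_iff two_ne_zero |>.1 (show (h.r x - h.i0 c) ^ 2 = 0 by
      linear_combination -hn + ((h.i0 c) ^ 2 - h.r x * h.i0 c) * k2))⟩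
  · have k2 : (2 : h.K) ≠ 0 := by rw [← map_ofNat h.i0]; exact (map_ne_zero h.i0).2 k
    refine ⟨Ideal.Quotient.mk _ t / 2, ?_⟩
    rw [map_div₀, ht, map_ofNat, eq_div_iff k2]
    ring

omit h in
theorem lev {x : Q} (k : x ≠ 0) : ∃ c : l, c ≠ 0 ∧
    (nu w N x = w.abv c ^ 2 ∨ nu w N x = w.abv c ^ 2 * rh w) :=
  par w (Units.map N (Units.mk0 x k)).ne_zero

omit h in
theorem scale {x : Q} {c : l} (h : Hy w N) (c0 : c ≠ 0) :
    nu w N (x * algebraMap l Q c⁻¹) = nu w N x / w.abv c ^ 2 := by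
  rw [mul, h.alg, map_inv₀, inv_pow, div_eq_mul_inv]

/-- An element of odd level forces a residue field extension. -/
theorem th1 {s : Q} (s0 : s ≠ 0) (hs : ∀ c : l, nu w N s ≠ w.abv c ^ 2) :
    ∃ x : h.O, h.ι (h.r x) ≠ h.r x := by
  by_contra k
  have k1 : ∀ x : Q, nu w N x ≤ 1 → ∃ c : l, nu w N (x - algebraMap l Q c) ≤ rh w := fun x hx =>
    let ⟨c, e⟩ := h.fix ⟨x, hx⟩ (by_contra fun j => k ⟨_, j⟩)
    ⟨c, le (h.r_eq.1 e)⟩
  obtain ⟨y, hy⟩ := h.ex_nc (x := s) fun c e => hs c (e ▸ h.alg c)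
  obtain ⟨d, d0, hd⟩ := lev (w := w) (N := N) s0
  replace hd : nu w N s = w.abv d ^ 2 * rh w := hd.resolve_left (hs d)
  have st : ∀ m : ℕ, ∃ v, Commute s v ∧ nu w N (y - v) ≤ nu w N y * rh w ^ m := fun m => by
    induction m with
    | zero => exact ⟨0, Commute.zero_right _, by simp⟩
    | succ m ih =>
      obtain ⟨v, cv, hv⟩ := ih
      rcases eq_or_ne (y - v) 0 with z | z
      · exact ⟨v, cv, by rw [z, h.zero]; exact mul_nonneg (nn _) (pow_pos (rh_pos w) _).le⟩
      obtain ⟨e, ce, he⟩ : ∃ e, Commute s e ∧ nu w N e = nu w N (y - v) := by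
        obtain ⟨c, c0, hc | hc⟩ := lev (w := w) (N := N) z
        · exact ⟨algebraMap l Q c, (Algebra.commutes c s).symm, (h.alg c).trans hc.symm⟩
        · refine ⟨s * algebraMap l Q d⁻¹ * algebraMap l Q c, ((Commute.refl s).mul_right
            (Algebra.commutes _ s).symm).mul_right (Algebra.commutes c s).symm, ?_⟩
          rw [mul, h.scale d0, h.alg, hd, mul_div_cancel_left₀ _ (pow_pos (w.abv.pos d0) 2).ne',
            mul_comm]
          exact hc.symm
      have e0 := h.ne (he ▸ pos z)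
      obtain ⟨c, hc⟩ := k1 (e⁻¹ * (y - v)) (by rw [mul, inv e0, he, inv_mul_cancel₀ (pos z).ne'])
      refine ⟨v + e * algebraMap l Q c, cv.add_right (ce.mul_right (Algebra.commutes c s).symm), ?_⟩
      rw [show y - (v + e * algebraMap l Q c) = e * (e⁻¹ * (y - v) - algebraMap l Q c) by
        rw [mul_sub, mul_inv_cancel_left₀ e0, sub_sub], mul, he, pow_succ, ← mul_assoc]
      exact mul_le_mul hv hc (nn _) (mul_nonneg (nn _) (pow_pos (rh_pos w) _).le)
  have y0 : y ≠ 0 := fun e => hy (by simp [e])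
  have p := mul_pos (pos (w := w) (N := N) s0) (pos (w := w) (N := N) y0)
  obtain ⟨m, hm⟩ := exists_pow_lt_of_lt_one (div_pos (pos (w := w) (N := N) hy) p) (rh_lt w)
  obtain ⟨v, cv, hv⟩ := st m
  have := h.sub (s * (y - v)) ((y - v) * s)
  rw [mul, mul, mul_comm (nu w N (y - v)), max_self, show s * (y - v) - (y - v) * s =
    s * y - y * s by rw [mul_sub, sub_mul, cv.eq]; abel] at this
  rw [lt_div_iff₀ p] at hm
  nlinarith [mul_le_mul_of_nonneg_left hv (nn (w := w) (N := N) s)]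

theorem cen {c : l} (k : w.abv c ≤ 1) : algebraMap l Q c ∈ h.O :=
  (h.alg _).trans_le (pow_le_one₀ (w.abv.nonneg _) k)

theorem near {t t' : l} (k : w.abv t ≤ 1) (j : w.abv (t' - t) < 1) : w.abv t' ≤ 1 := by
  simpa [k, j.le] using (w.nonarch (t' - t) t).trans (max_le j.le k)

theorem r_cen {t t' : l} (k : w.abv t ≤ 1) (j : w.abv (t' - t) < 1) :
    h.r ⟨_, h.cen (h.near k j)⟩ = h.r ⟨_, h.cen k⟩ := h.r_eq.2 (by
  show nu w N (algebraMap l Q t' - algebraMap l Q t) < 1
  rw [← map_sub, h.alg]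
  exact pow_lt_one₀ (w.abv.nonneg _) j two_ne_zero)

/-- The roots of integral polynomials are integral. -/
theorem rt_mem {t n : l} {s : Q} (k : w.abv t ≤ 1) (j : w.abv n ≤ 1) (e : Rt t n s) :
    s ∈ h.O := not_lt.1 fun i : 1 < nu w N s => by
  have := h.sub (algebraMap l Q t * s) (algebraMap l Q n)
  rw [show algebraMap l Q t * s - algebraMap l Q n = s * s by
    rw [← Algebra.smul_def, eq_comm, ← sub_eq_zero, ← e]; abel, mul, mul] at this
  have a : nu w N (algebraMap l Q t) ≤ 1 := h.cen k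
  have b : nu w N (algebraMap l Q n) ≤ 1 := h.cen j
  rcases le_max_iff.1 this with q | q <;> nlinarith

theorem rt_eq {t n : l} {s : Q} (k : w.abv t ≤ 1) (j : w.abv n ≤ 1) (e : Rt t n s) :
    (⟨s, h.rt_mem k j e⟩ * ⟨s, h.rt_mem k j e⟩ - ⟨_, h.cen k⟩ * ⟨s, h.rt_mem k j e⟩ +
      ⟨_, h.cen j⟩ : h.O) = 0 := Subtype.ext (by
  rw [Rt, Algebra.smul_def] at e; exact e)

/-- The roots of unramified polynomials. -/
theorem th2 {t n t' n' : l} {s : Q} (u : Unr w t n) (k : w.abv (t' - t) < 1)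
    (j : w.abv (n' - n) < 1) (e : Rt t' n' s) : ∃ x : h.O, h.ι (h.r x) ≠ h.r x := by
  have a := h.near u.1 k
  have b := h.near u.2.1 j
  refine ⟨⟨s, h.rt_mem a b e⟩, fun i => ?_⟩
  obtain ⟨c, hc⟩ := h.fix _ i
  have := congrArg h.r (h.rt_eq a b e)
  rw [map_add, map_sub, map_mul, map_mul, hc, h.r_cen u.1 k, h.r_cen u.2.1 j, ← map_mul h.r,
    ← map_mul h.r, ← map_sub, ← map_add, map_zero, h.r_zero] at this
  have q : nu w N (algebraMap l Q ((c : l) ^ 2 - t * c + n)) < 1 := by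
    rw [map_add, map_sub, map_mul, map_pow, sq]; exact this
  rw [h.alg, u.2.2 c c.2] at q
  simp at q

/-- The conjugation by a unit of the algebra. -/
def cn (P : Qˣ) : h.O →+* h.O where
  toFun x := ⟨P * x * ↑P⁻¹, show nu w N _ ≤ 1 by
    rw [mul, mul, mul_right_comm, ← mul, P.mul_inv, one, one_mul]; exact x.2⟩
  map_one' := Subtype.ext (by simp)
  map_mul' x y := Subtype.ext (by simp [mul_assoc])
  map_zero' := Subtype.ext (by simp)
  map_add' x y := Subtype.ext (by simp [mul_add, add_mul])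

theorem cn_c (P : Qˣ) (x : h.O) : (h.cn P x : Q) = P * x * ↑P⁻¹ := rfl

theorem cn_or (P : Qˣ) (x : h.O) : h.r (h.cn P x) = h.r x ∨ h.r (h.cn P x) = h.ι (h.r x) := by
  refine h.root (t := x + h.cO x) (n := x * h.cO x) (map_add _ _ _) (map_mul _ _ _) ?_
  have a : h.cn P (x + h.cO x) = x + h.cO x := Subtype.ext (by
    show P * ((x : Q) + P011UF5.cj N x) * _ = x + P011UF5.cj N x
    rw [add_cj, ← Algebra.commutes, mul_assoc, P.mul_inv, mul_one])
  have b : h.cn P (x * h.cO x) = x * h.cO x := Subtype.ext (by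
    show P * ((x : Q) * P011UF5.cj N x) * _ = x * P011UF5.cj N x
    rw [mul_cj h.dv, ← Algebra.commutes, mul_assoc, P.mul_inv, mul_one])
  refine (congrArg _ ?_).trans (map_zero _)
  rw [← a, ← b, ← map_mul, ← map_mul, ← map_sub, ← map_add]
  refine (congrArg _ (Subtype.ext ?_)).trans (map_zero _)
  show (x : Q) * x - (x + P011UF5.cj N x) * x + x * P011UF5.cj N x = 0
  rw [add_mul, cj_comm]; abel

theorem r_ne {x : h.O} (k : nu w N x = 1) : h.r x ≠ 0 := fun e => (h.r_zero.1 e).ne k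

/-- There is a uniformizer, and the elements of odd level act as the conjugation. -/
theorem ex_pi {x : h.O} (k : h.ι (h.r x) ≠ h.r x) : ∃ P : Qˣ, nu w N P = rh w ∧
    ∀ (s : Qˣ) (c : l), nu w N s = w.abv c ^ 2 * rh w → ∀ y, h.r (h.cn s y) = h.ι (h.r y) := by
  obtain ⟨y, hy⟩ := h.ex_nc (x := x) fun c e => k (congrArg h.r (Subtype.ext (by
    show P011UF5.cj N x = x
    rw [e, cj_alg h.dv])))
  have e : (x : Q) * (x * y - y * x) = (x * y - y * x) * P011UF5.cj N x := by
    have a := mul_cj h.dv (x : Q)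
    have b : (x : Q) * x = algebraMap l Q (tr N (x : Q)) * x - algebraMap l Q (N x) := by
      rw [← a, ← add_cj, add_mul, cj_comm]; abel
    rw [sub_mul, mul_assoc y, a, mul_sub, ← mul_assoc, b, P011UF5.cj, mul_sub,
      ← Algebra.commutes, ← Algebra.commutes (N x), sub_mul, mul_assoc, mul_assoc]
    abel
  obtain ⟨c, c0, hc⟩ := lev (w := w) (N := N) hy
  have c2 := (pow_pos (w.abv.pos c0) 2).ne'
  have j0 : (x * y - y * x) * algebraMap l Q c⁻¹ ≠ 0 :=
    mul_ne_zero hy ((map_ne_zero _).2 (inv_ne_zero c0))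
  have e' : (x : Q) * ((x * y - y * x) * algebraMap l Q c⁻¹) =
      (x * y - y * x) * algebraMap l Q c⁻¹ * P011UF5.cj N x := by
    rw [← mul_assoc, e, mul_assoc, mul_assoc, Algebra.commutes]
  have sc := h.scale (x := x * y - y * x) c0
  rcases hc with hc | hc
  · rw [hc, div_self c2] at sc
    have := congrArg h.r (show x * ⟨_, sc.le⟩ = ⟨_, sc.le⟩ * h.cO x from Subtype.ext e')
    rw [map_mul, map_mul, mul_comm] at this
    exact (k (mul_left_cancel₀ (h.r_ne sc) this).symm).elim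
  rw [hc, mul_div_cancel_left₀ _ c2] at sc
  have a : h.cn (Units.mk0 _ j0) (h.cO x) = x := Subtype.ext (by
    rw [cn_c, Units.mul_inv_eq_iff_eq_mul]; exact e'.symm)
  have b : ∀ z, h.r (h.cn (Units.mk0 _ j0) z) = h.ι (h.r z) := fun z => by
    refine (h.cn_or _ z).elim (fun i => ?_) id
    have q := h.cn_or (Units.mk0 _ j0) (z + h.cO x)
    rw [map_add, map_add, map_add, map_add, a, i, ← ι_r, ι_ι] at q
    rcases q with q | q
    exacts [(k (add_left_cancel q).symm).elim, i.trans (add_right_cancel q)]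
  refine ⟨Units.mk0 _ j0, sc, fun s d hs z => ?_⟩
  have d0 : d ≠ 0 := fun i => (pos (w := w) (N := N) s.ne_zero).ne' (by simp [hs, i])
  set P := Units.mk0 _ j0
  have f : nu w N (s * ↑P⁻¹ * algebraMap l Q d⁻¹) = 1 := by
    rw [h.scale d0, mul, hs, Units.val_inv_eq_inv_val, inv P.ne_zero, show nu w N P = _ from sc,
      mul_inv_cancel_right₀ (rh_pos w).ne', div_self (pow_pos (w.abv.pos d0) 2).ne']
  have := congrArg h.r (show h.cn s z * ⟨_, f.le⟩ = ⟨_, f.le⟩ * h.cn P z from Subtype.ext (by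
    show s * (z : Q) * ↑s⁻¹ * (s * ↑P⁻¹ * _) = s * ↑P⁻¹ * _ * (P * z * ↑P⁻¹)
    rw [← Algebra.commutes, ← mul_assoc, ← Algebra.commutes]
    simp [mul_assoc]))
  rw [map_mul, map_mul, mul_comm, b] at this
  exact mul_left_cancel₀ (h.r_ne f) this

end Hy

end Vale.Agent.P011UF5
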